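import Crest.Agent.X262.Wd54.Gx
import Crest.Agent.X262.Sym65.Two
import Crest.Agent.X262.Val40.Pull

/-!
# Row 262, road B, PROD (helper86), part 1: the product formula for families

`h : IsPF α β`, `α : K₁ → L`, `β : K₂ → L`.

* `Fr`, `Spl` : classes which come from a subfield, families which only depend on `K₁` and `K₂`;
* `gx_or`, `sm_gx` : only the Gauss extensions contribute to a sum over a pulled back divisor;
* `sm_ker` : the excess number of `α^* D₁ ⊓ β^* D₂` with a kernel;  `sm_prod` : product formula.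
-/

set_option autoImplicit false
set_option linter.unusedSectionVars false

noncomputable section

namespace Crest.Agent.X262.Prd

open Crest.Agent.X277 Crest.Agent.X277.BD Crest.Agent.X277.Pst Crest.Agent.X277.BD.Cyc Polynomial
open Crest.Agent.X262.Geo Crest.Agent.X262.Hb Crest.Agent.X262.Sym65 Crest.Agent.X262.Wd
open Crest.Agent.R274.Prod1_134 Set

variable {K K₁ K₂ L E : Type} [Field K] [Algebra ℂ K] [Field K₁] [Algebra ℂ K₁] [Field K₂]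
  [Algebra ℂ K₂] [Field L] [Algebra ℂ L] [Field E] [Algebra ℂ E] {B : Th}

theorem hom_cm (α : K →ₐ[ℂ] L) (W : RZ ℂ L) : (LP.hom α).cm W = dn α W := cm_ofHom _ _ W


theorem mem_sup_pb {α : K →ₐ[ℂ] L} {D : BD ℂ K} {W : RZ ℂ L} :
    W ∈ Sup (pb α D) ↔ dn α W ∈ Sup D := val_mp_eq_one.not

theorem sup_pb (α : K →ₐ[ℂ] L) (D : BD ℂ K) : Sup (pb α D) = (LP.hom α).cm ⁻¹' Sup D :=
  Set.ext fun W => by rw [mem_preimage, hom_cm, mem_sup_pb]

theorem ne_top_of_sup {D : BD ℂ K} {V : RZ ℂ K} (h : V ∈ Sup D) : V.1 ≠ ⊤ := fun h0 =>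
  h (Val40.val_of_top h0 D)

theorem hom_at (α : K →ₐ[ℂ] L) (W : RZ ℂ L) :
    (LP.hom α).comp (LP.at W) = (LP.at (dn α W)).comp (LP.hom (ri α W)) := LP.ext fun x => by
  rw [LP.r_comp, LP.r_comp, LP.r_hom, LP.r_hom]
  exact (ri_rr α W x).symm

theorem hom_at' (β : K →ₐ[ℂ] L) (W : RZ ℂ L) (h : ∀ b, β b ∈ W.1) :
    (LP.hom β).comp (LP.at W) = LP.hom (rt β W h) := LP.ext fun x => by
  rw [LP.r_comp, LP.r_hom, LP.r_hom]
  rfl

theorem cf_on (hB : B.Ax) (α : K →ₐ[ℂ] L) (a : BD ℂ K) :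
    cf B (pb α a) = (cf B a).on (LP.hom α) := by
  funext E _ _ p
  change B.pb p _ = B.pb _ _
  rw [hB.pb_comp, hB.pb_c1_hom]

theorem prd_of_pf [Algebra.EssFiniteType ℂ K₁] [Algebra.EssFiniteType ℂ K₂] {α : K₁ →ₐ[ℂ] L}
    {β : K₂ →ₐ[ℂ] L} (h : IsPF α β) : Prd α β :=
  ⟨dim_pf h, eq_top_iff.2 (h.adjoin_eq ▸ IntermediateField.adjoin_le_iff.2 (union_subset
    (fun _ hx => (le_sup_left : α.fieldRange ≤ _) hx)
    fun _ hx => (le_sup_right : β.fieldRange ≤ _) hx))⟩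

/-- the class comes from the subfield `F` -/
def Fr (B : Th) (F : IntermediateField ℂ E) (x : B.H E) : Prop :=
  ∃ y : B.H F, x = B.pb (LP.hom F.val) y

theorem Fr.mul {F : IntermediateField ℂ E} {x y : B.H E} (h : Fr B F x) (h' : Fr B F y) :
    Fr B F (x * y) := by
  obtain ⟨x, rfl⟩ := h
  obtain ⟨y, rfl⟩ := h'
  exact ⟨x * y, (map_mul _ _ _).symm⟩

theorem Fr.itg (hB : B.Ax) [Algebra.EssFiniteType ℂ E] {F : IntermediateField ℂ E} {x : B.H E}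
    (h : Fr B F x) (hd : dim ℂ E ≠ dim ℂ F) : B.itg E x = 0 := by
  obtain ⟨x, rfl⟩ := h
  have := essFT_of_hom F.val
  exact hB.van _ hd x

/-- a place with values in `F` -/
theorem exists_fac (p : LP K E) {F : IntermediateField ℂ E} (h : ∀ x, p.r x ∈ F) :
    ∃ q : LP K F, q.V = p.V ∧ q.comp (LP.hom F.val) = p := by
  have h1 : ∀ y, p.emb y ∈ F.toSubalgebra := fun y => by
    obtain ⟨x, -, rfl⟩ := rr_surj p.V y
    exact p.emb_r x ▸ h x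
  refine ⟨(LP.at p.V).comp (LP.hom (p.emb.codRestrict F.toSubalgebra h1)), LP.comp_hom_V _ _,
    LP.ext fun x => ?_⟩
  rw [LP.r_comp, LP.r_comp, LP.r_hom, LP.r_hom]
  exact p.emb_r x

theorem fr_of_liv {Z : Set (RZ ℂ K)} {φ : PF B K} (hφ : Liv B Z φ) [Algebra.EssFiniteType ℂ E]
    {p : LP K E} (hp : p.V ∈ Z) {F : IntermediateField ℂ E} (h : ∀ x, p.r x ∈ F) :
    Fr B F (φ E p) := by
  obtain ⟨q, h1, rfl⟩ := exists_fac p h
  have := essFT_of_hom F.val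
  exact ⟨_, hφ.nat _ _ q _ (h1 ▸ hp)⟩

variable {α : K₁ →ₐ[ℂ] L} {β : K₂ →ₐ[ℂ] L}

/-- the family only depends on the values of the functions from `K₁` and `K₂` -/
def Spl (α : K₁ →ₐ[ℂ] L) (β : K₂ →ₐ[ℂ] L) (Z : Set (RZ ℂ L)) (ψ : PF B L) : Prop :=
  ∀ (E : Type) [Field E] [Algebra ℂ E] [Algebra.EssFiniteType ℂ E] (p : LP L E)
    (F : IntermediateField ℂ E), p.V ∈ Z → (∀ x, p.r (α x) ∈ F) → (∀ x, p.r (β x) ∈ F) →
    Fr B F (ψ E p)

theorem Spl.mul {Z : Set (RZ ℂ L)} {φ ψ : PF B L} (h : Spl α β Z φ) (h' : Spl α β Z ψ) :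
    Spl α β Z (φ * ψ) := fun E _ _ _ p F h1 h2 h3 => (h E p F h1 h2 h3).mul (h' E p F h1 h2 h3)

theorem Spl.mono {Z Z' : Set (RZ ℂ L)} {φ : PF B L} (h : Spl α β Z φ) (hZ : Z' ⊆ Z) :
    Spl α β Z' φ := fun E _ _ _ p F h1 => h E p F (hZ h1)

theorem spl_left {Z : Set (RZ ℂ K₁)} {φ : PF B K₁} (h : Liv B Z φ) :
    Spl α β ((LP.hom α).cm ⁻¹' Z) (φ.on (LP.hom α)) := fun _ _ _ _ p _ h1 h2 _ =>
  fr_of_liv h (p := (LP.hom α).comp p) h1 fun x => by simpa using h2 x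

theorem spl_right {Z : Set (RZ ℂ K₂)} {φ : PF B K₂} (h : Liv B Z φ) :
    Spl α β ((LP.hom β).cm ⁻¹' Z) (φ.on (LP.hom β)) := fun _ _ _ _ p _ h1 _ h2 =>
  fr_of_liv h (p := (LP.hom β).comp p) h1 fun x => by simpa using h2 x

variable [Algebra.EssFiniteType ℂ K₁] [Algebra.EssFiniteType ℂ K₂] [Algebra.EssFiniteType ℂ L]

/-- Gauss extension, or the residues from `K₁` and `K₂` lie in a small field -/
theorem gx_or (h : IsPF α β) {W : RZ ℂ L} (hW : Dvs W) (h0 : (dn α W).1 ≠ ⊤) :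
    Gx α β W ∨ ∃ F : IntermediateField ℂ (Rf W), dim ℂ (Rf W) ≠ dim ℂ F ∧
      (∀ x, rr W (α x) ∈ F) ∧ ∀ x, rr W (β x) ∈ F := by
  have := essFT_Rf hW
  let F := IntermediateField.adjoin ℂ (rr W '' (range α ∪ range β))
  by_cases hd : dim ℂ (Rf W) = dim ℂ F
  · refine Or.inl (gx_of_rk h h0 ((dvs_iff.1 hW).2.trans (add_le_add_left
      (rk_le_of_sub fun x _ => mem_cl_iff.2 ?_) 1))).1
    have := essFT_of_hom F.val
    have h1 : 0 < Module.finrank F (Rf W) := (deg_pos_iff F.val).2 hd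
    have := Module.finite_of_finrank_pos h1
    have h2 := IntermediateField.isAlgebraic_adjoin_iff.1
      (Algebra.IsAlgebraic.isAlgebraic (R := F) (rr W x))
    exact h2
  · exact Or.inr ⟨F, hd, fun x => IntermediateField.subset_adjoin _ _ ⟨_, Or.inl ⟨x, rfl⟩, rfl⟩,
      fun x => IntermediateField.subset_adjoin _ _ ⟨_, Or.inr ⟨x, rfl⟩, rfl⟩⟩

/-- a sum over a pulled back divisor which is carried by the Gauss extensions -/
theorem sm_gx (h : IsPF α β) {D : BD ℂ K₁} {g : RZ ℂ K₁ → ℂ} {g' : RZ ℂ L → ℂ}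
    (h0 : ∀ W, Dvs W → dn α W ∈ Sup D → ¬ Gx α β W → g' W = 0)
    (h1 : ∀ W, Dvs W → Dvs (dn α W) → dn α W ∈ Sup D → Gx α β W → g' W = g (dn α W)) :
    sm (pb α D) g' = sm D g := by
  classical
  choose u hu hd using exists_gx h
  have hi : Function.Injective u := fun V V' e => by rw [← hd V, e, hd]
  rw [sm, ← finsum_mem_univ, finsum_mem_inter_support_eq _ _ (range u),
    finsum_mem_range hi]
  · refine finsum_congr fun V => ?_
    rw [finsum_eq_if, finsum_eq_if]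
    by_cases hV : Dvs V
    · have h2 : Dvs (dn α (u V)) := (hd V).symm ▸ hV
      have h3 := (hu V).dvs h h2
      rw [if_pos hV, if_pos h3, (hu V).od_pb h h2]
      by_cases h4 : od (dn α (u V)) D = 0
      · have h5 : od V D = 0 := hd V ▸ h4
        rw [h4, h5, Int.cast_zero, zero_mul, zero_mul]
      · rw [h1 _ h3 h2 ((mem_sup h2).2 h4) (hu V), hd]
    · rw [if_neg hV]
      split_ifs with h3
      · by_contra h4
        refine hV (hd V ▸ Val40.dvs_dn h3 (Val40.dn_ne_top_of_od h3 (a := D) fun h5 => h4 ?_))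
        rw [h5, Int.cast_zero, zero_mul]
      · rfl
  · refine Set.ext fun W => and_congr_left fun hW => iff_of_true (mem_univ _) ?_
    rw [Function.mem_support, finsum_eq_if] at hW
    split_ifs at hW with h2
    · have h3 : dn α W ∈ Sup D := mem_sup_pb.1 ((mem_sup h2).2 fun h4 => hW (by simp [h4]))
      have h4 : Gx α β W := by_contra fun h4 => hW (by rw [h0 W h2 h3 h4, mul_zero])
      exact ⟨dn α W, Gx.unique h (hu _) h4 (hd _)⟩
    · exact absurd rfl hW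

omit [Algebra.EssFiniteType ℂ K₁] [Algebra.EssFiniteType ℂ K₂] [Algebra.EssFiniteType ℂ L] in
/-- the residues of a small subfield lie in a small subfield -/
theorem exists_small [Algebra.EssFiniteType ℂ E] {F : IntermediateField ℂ E}
    (hd : dim ℂ E ≠ dim ℂ F) {W : RZ ℂ E} (hW : Dvs W) (h0 : ¬ ∀ x ∈ F, x ∈ W.1) :
    ∃ F' : IntermediateField ℂ (Rf W), dim ℂ (Rf W) ≠ dim ℂ F' ∧ ∀ x ∈ F, rr W x ∈ F' := by
  have := essFT_of_hom F.val
  have h1 : (dn F.val W).1 ≠ ⊤ := fun h1 => h0 fun x hx => dn_eq_top.1 h1 ⟨x, hx⟩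
  have h2 := Val40.dvs_dn hW h1
  have := essFT_Rf hW
  have := essFT_Rf h2
  have := essFT_of_hom (ri F.val W).fieldRange.val
  refine ⟨(ri F.val W).fieldRange, fun h3 => hd ?_, fun x hx => ⟨_, ri_rr F.val W ⟨x, hx⟩⟩⟩
  have h4 : dim ℂ (ri F.val W).fieldRange = dim ℂ (Rf (dn F.val W)) :=
    (deg_pos_iff ((ri F.val W).codRestrict (ri F.val W).fieldRange.toSubalgebra
      fun y => ⟨y, rfl⟩)).1 (by
        rw [deg_of_surjective fun ⟨_, y, rfl⟩ => ⟨y, rfl⟩]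
        exact one_pos)
  rw [dim_Rf' hW, dim_Rf' h2, h3, h4]

variable {D₁ : BD ℂ K₁} {D₂ : BD ℂ K₂} {P₁ : PX B K₁} {P₂ : PX B K₂}

/-- **the excess number of a product, with a kernel** -/
theorem sm_ker (hB : B.Ax) (h : IsPF α β) (h1 : 0 ≤ D₁) (h2 : 0 ≤ D₂)
    (hP₁ : LivX B (Sup D₁) P₁) (hP₂ : LivX B (Sup D₂) P₂)
    (z₁ : ∀ (E : Type) [Field E] [Algebra ℂ E] [Algebra.EssFiniteType ℂ E] (p : LP K₁ E),
      p.V ∈ Sup D₁ → pv P₁ (cf B D₁) E p = 0)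
    (z₂ : ∀ (E : Type) [Field E] [Algebra ℂ E] [Algebra.EssFiniteType ℂ E] (p : LP K₂ E),
      p.V ∈ Sup D₂ → pv P₂ (cf B D₂) E p = 0)
    {ψ : PF B L} (hψ : Liv B (Sup (pb α D₁ ⊓ pb β D₂)) ψ)
    (hs : Spl α β (Sup (pb α D₁ ⊓ pb β D₂)) ψ) {k : RZ ℂ K₁ → RZ ℂ K₂ → ℂ}
    (hk : ∀ V₁ V₂, Dvs V₁ → Dvs V₂ → V₁ ∈ Sup D₁ → V₂ ∈ Sup D₂ → ∀ (E : Type) [Field E]
      [Algebra ℂ E] [Algebra.EssFiniteType ℂ E] (p : LP L E) (e₁ : Rf V₁ →ₐ[ℂ] E)
      (e₂ : Rf V₂ →ₐ[ℂ] E), IsPF e₁ e₂ → (LP.hom α).comp p = (LP.at V₁).comp (LP.hom e₁) →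
      (LP.hom β).comp p = (LP.at V₂).comp (LP.hom e₂) →
      B.itg E (B.pb (LP.hom e₁) (qv P₁ (cf B D₁) _ (LP.at V₁)) *
        B.pb (LP.hom e₂) (qv P₂ (cf B D₂) _ (LP.at V₂)) * ψ E p) = k V₁ V₂) :
    sm (pb α D₁ ⊓ pb β D₂) (i1 (qv (P₁.on (LP.hom α) * P₂.on (LP.hom β))
      (cf B (pb α D₁ ⊓ pb β D₂)) * ψ)) = sm D₁ fun V₁ => sm D₂ (k V₁) := by
  have e1 := pb_nonneg_iff (α := α).2 h1
  have e2 := pb_nonneg_iff (α := β).2 h2
  have eS := sup_inf e1 e2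
  have s1 : Sup (pb α D₁ ⊓ pb β D₂) ⊆ (LP.hom α).cm ⁻¹' Sup D₁ := by
    rw [eS, ← sup_pb]; exact inter_subset_left
  have s2 : Sup (pb α D₁ ⊓ pb β D₂) ⊆ (LP.hom β).cm ⁻¹' Sup D₂ := by
    rw [eS, ← sup_pb]; exact inter_subset_right
  have q1 := hP₁.qv (Liv.cf hB D₁)
  have q2 := hP₂.qv (Liv.cf hB D₂)
  have c1 : qv (P₁.on (LP.hom α)) (cf B (pb α D₁)) = (qv P₁ (cf B D₁)).on (LP.hom α) := by
    rw [cf_on hB]; rfl
  have c2 : qv (P₂.on (LP.hom β)) (cf B (pb β D₂)) = (qv P₂ (cf B D₂)).on (LP.hom β) := by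
    rw [cf_on hB]; rfl
  have sA := (((spl_left (β := β) q1).mono s1).mul ((spl_right q2).mono s2)).mul hs
  have sB := (((spl_left (β := β) q1).mono s1).mul
    ((spl_right (hP₂.pv Liv.zero)).mono s2)).mul hs
  rw [two hB e1 e2 ((hP₁.on _).mono s1) ((hP₂.on _).mono s2) hψ
    (fun E _ _ _ p hp => by rw [cf_on hB]; exact z₁ E _ (s1 hp))
    (fun E _ _ _ p hp _ => by rw [cf_on hB]; exact z₂ E _ (by rwa [sup_pb] at hp)), c1, c2]
  have fl : ∀ V : RZ ℂ L, dn α V ∈ Sup D₁ → (pb β D₂).val V = 1 → ∀ W : RZ ℂ (Rf V),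
      W ∈ Sup ((plV V).res (pb β D₂)) → (plV V).cm W ∈ Sup (pb α D₁ ⊓ pb β D₂) :=
    fun V h3 h4 W h5 => eS ▸ ⟨fun h6 => mem_sup_pb.2 h3 (one_of_le (Pl.cm_le W) h6),
      fun h6 => h5 ((res_one_iff (LP.at V) h4).2 h6)⟩
  refine sm_gx h (fun V hV h3 h4 => ?_) fun V hV hV' h3 h4 => ?_
  · obtain ⟨F, h5, h6, h7⟩ := (gx_or h hV (ne_top_of_sup h3)).resolve_left h4
    have := essFT_Rf hV
    split_ifs with h8
    · refine sm_eq_zero fun W hW h9 => ?_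
      have := essFT_Rf hW
      have h10 := fl V h3 h8 W ((mem_sup hW).2 h9)
      obtain ⟨F', h11, h12⟩ := exists_small h5 hW fun h11 => (mem_sup hW).2 h9 (by
        refine (res_one_iff (LP.at V) h8).2 (val_mp_eq_one.2 ?_)
        refine (val_of_le (V := dn β V) (g := 1) (fun x hx => ?_) ?_).symm.trans (map_one _)
        · exact ⟨hx, h11 _ (h7 x)⟩
        · rw [map_one, val_mp_eq_one.1 h8])
      exact (sA _ ((LP.at V).comp (LP.at W)) F' h10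
        (fun x => by rw [LP.r_comp]; exact h12 _ (h6 x))
        fun x => by rw [LP.r_comp]; exact h12 _ (h7 x)).itg hB h11
    · exact (sB _ (LP.at V) F (eS ▸ ⟨mem_sup_pb.2 h3, h8⟩) h6 h7).itg hB h5
  · have h5 : (pb β D₂).val V = 1 := val_mp_eq_one.2 (Val40.val_of_top (dn_eq_top.2 h4.mem) _)
    have := essFT_Rf hV
    have := essFT_Rf hV'
    have h6 : (plV V).res (pb β D₂) = pb (rt β V h4.mem) D₂ := by
      rw [← LP.res_hom (rt β V h4.mem), ← hom_at', LP.res_comp, LP.res_hom]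
      · rfl
      · rw [hom_cm]; exact val_mp_eq_one.1 h5
    have h7 := (h4.isPF h).symm
    rw [if_pos h5, h6]
    refine sm_gx h7 (fun W hW h8 h9 => ?_) fun W hW hW' h8 h9 => ?_
    · obtain ⟨F, h10, h11, h12⟩ := (gx_or h7 hW (ne_top_of_sup h8)).resolve_left h9
      have := essFT_Rf hW
      exact (sA _ ((LP.at V).comp (LP.at W)) F (fl V h3 h5 W (h6 ▸ mem_sup_pb.2 h8))
        (fun x => by
          have h13 := h12 (rr (dn α V) x)
          rw [ri_rr] at h13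
          rwa [LP.r_comp])
        fun x => by rw [LP.r_comp]; exact h11 x).itg hB h10
    · have := essFT_Rf hW
      have := essFT_Rf hW'
      have h10 : (LP.hom α).comp ((LP.at V).comp (LP.at W)) =
          (LP.at (dn α V)).comp (LP.hom (rt (ri α V) W h9.mem)) := by
        rw [← LP.comp_assoc, hom_at, LP.comp_assoc, hom_at']
      have h11 : (LP.hom β).comp ((LP.at V).comp (LP.at W)) =
          (LP.at (dn (rt β V h4.mem) W)).comp (LP.hom (ri (rt β V h4.mem) W)) := by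
        rw [← LP.comp_assoc, hom_at' β V h4.mem, hom_at]
      rw [← hk _ _ hV' hW' h3 h8 _ _ _ _ (h9.isPF h7).symm h10 h11,
        ← q1.nat _ _ (LP.at (dn α V)) _ h3, ← q2.nat _ _ (LP.at (dn _ W)) _ h8, ← h10, ← h11]
      rfl

/-- **the product formula** -/
theorem sm_prod (hB : B.Ax) (h : IsPF α β) (h1 : 0 ≤ D₁) (h2 : 0 ≤ D₂)
    (hP₁ : LivX B (Sup D₁) P₁) (hP₂ : LivX B (Sup D₂) P₂)
    (z₁ : ∀ (E : Type) [Field E] [Algebra ℂ E] [Algebra.EssFiniteType ℂ E] (p : LP K₁ E),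
      p.V ∈ Sup D₁ → pv P₁ (cf B D₁) E p = 0)
    (z₂ : ∀ (E : Type) [Field E] [Algebra ℂ E] [Algebra.EssFiniteType ℂ E] (p : LP K₂ E),
      p.V ∈ Sup D₂ → pv P₂ (cf B D₂) E p = 0)
    {ψ₁ : PF B K₁} {ψ₂ : PF B K₂} (hψ₁ : Liv B (Sup D₁) ψ₁) (hψ₂ : Liv B (Sup D₂) ψ₂) :
    sm (pb α D₁ ⊓ pb β D₂) (i1 (qv (P₁.on (LP.hom α) * P₂.on (LP.hom β))
      (cf B (pb α D₁ ⊓ pb β D₂)) * (ψ₁.on (LP.hom α) * ψ₂.on (LP.hom β)))) =
      sm D₁ (i1 (qv P₁ (cf B D₁) * ψ₁)) * sm D₂ (i1 (qv P₂ (cf B D₂) * ψ₂)) := by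
  have eS := sup_inf (pb_nonneg_iff (α := α).2 h1) (pb_nonneg_iff (α := β).2 h2)
  have s1 : Sup (pb α D₁ ⊓ pb β D₂) ⊆ (LP.hom α).cm ⁻¹' Sup D₁ := by
    rw [eS, ← sup_pb]; exact inter_subset_left
  have s2 : Sup (pb α D₁ ⊓ pb β D₂) ⊆ (LP.hom β).cm ⁻¹' Sup D₂ := by
    rw [eS, ← sup_pb]; exact inter_subset_right
  rw [sm_ker hB h h1 h2 hP₁ hP₂ z₁ z₂ (((hψ₁.on _).mono s1).mul ((hψ₂.on _).mono s2))
    (((spl_left hψ₁).mono s1).mul ((spl_right hψ₂).mono s2))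
    (k := fun V₁ V₂ => i1 (qv P₁ (cf B D₁) * ψ₁) V₁ * i1 (qv P₂ (cf B D₂) * ψ₂) V₂)]
  · simp only [sm_mul]
    simp only [mul_comm _ (sm D₂ _), sm_mul]
  · intro V₁ V₂ h3 h4 h5 h6 E _ _ _ p e₁ e₂ h7 h8 h9
    have := essFT_Rf h3
    have := essFT_Rf h4
    have h10 : (ψ₁.on (LP.hom α) * ψ₂.on (LP.hom β)) E p =
        B.pb (LP.hom e₁) (ψ₁ _ (LP.at V₁)) * B.pb (LP.hom e₂) (ψ₂ _ (LP.at V₂)) := by
      rw [← hψ₁.nat _ _ (LP.at V₁) _ h5, ← hψ₂.nat _ _ (LP.at V₂) _ h6, ← h8, ← h9]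
      rfl
    rw [h10, mul_mul_mul_comm, ← map_mul, ← map_mul, hB.fub _ _ (prd_of_pf h7)]
    rfl

end Crest.Agent.X262.Prd
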