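import Crest.Agent.X262.End66.Rx
import Crest.Agent.X262.End66.Loc
import Crest.Agent.X262.Vb.Loc

/-!
# Row 262, road B, PROD (helper86), part 2: projections to some of the factors

* `Pj io₁ io` : the factors of `io₁` are some of the factors of `io`; `pt vr up tgt fam cfg dat`;
* `Sp π₁ π₂`  : the ambient space is the product of the two ambient spaces;
* `dv_sum`, `cpz_sum` : divisor and Chern polynomial for the product of two targets.
-/

set_option autoImplicit false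
set_option linter.unusedSectionVars false

noncomputable section

namespace Crest.Agent.X262.Prd

open Crest.Agent.X277 Crest.Agent.X277.BD
open Crest.Agent.X262.Hb Crest.Agent.X262.Vb Crest.Agent.X262.End66
open Crest.Agent.X262.Bub96 (hv Tr)
open Crest.Agent.X262.Bub96.Tr (dot)

variable {J : Type} [Fintype J] [DecidableEq J] {io : J → Type} [∀ j, Fintype (io j)]
  [∀ j, DecidableEq (io j)]
variable {J₁ : Type} [Fintype J₁] [DecidableEq J₁] {io₁ : J₁ → Type} [∀ j, Fintype (io₁ j)]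
  [∀ j, DecidableEq (io₁ j)]
variable {J₂ : Type} [Fintype J₂] [DecidableEq J₂] {io₂ : J₂ → Type} [∀ j, Fintype (io₂ j)]
  [∀ j, DecidableEq (io₂ j)]
variable {A A₁ A₂ I : Type} [Fintype A] [Fintype A₁] [Fintype A₂] [Fintype I]
variable {E E' : Type} [Field E] [Algebra ℂ E] [Field E'] [Algebra ℂ E'] {B : Th}

/-- the factors of `io₁` are some of the factors of `io` -/
structure Pj (io₁ : J₁ → Type) (io : J → Type) where
  /-- the factors -/
  g : J₁ → J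
  inj : Function.Injective g
  /-- the coordinates -/
  ei : ∀ k, io₁ k ≃ io (g k)

namespace Pj

variable (π : Pj io₁ io)

/-- the points -/
def pt {E : Type} (y : Pnt io E) : Pnt io₁ E := fun k i => y (π.g k) (π.ei k i)

/-- the variables -/
def vr : Vr io₁ → Vr io := fun v => ⟨π.g v.1, π.ei v.1 v.2⟩

/-- extension of a multidegree by zero -/
def up (κ : J₁ → ℕ) : J → ℕ := Function.extend π.g κ 0

@[simp] theorem up_g (κ : J₁ → ℕ) (k : J₁) : π.up κ (π.g k) = κ k := π.inj.extend_apply _ _ _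

theorem up_of {j : J} (h : ¬ ∃ k, π.g k = j) (κ : J₁ → ℕ) : π.up κ j = 0 :=
  Function.extend_apply' _ _ _ h


theorem vr_inj : Function.Injective π.vr := by
  rintro ⟨k, i⟩ ⟨k', i'⟩ h
  obtain rfl : k = k' := π.inj (congrArg Sigma.fst h)
  exact congrArg (Sigma.mk k) ((π.ei k).injective (eq_of_heq (Sigma.mk.inj_iff.1 h).2))

theorem prod_up {R : Type*} [CommMonoid R] (κ : J₁ → ℕ) (f : J → ℕ → R) (h : ∀ j, f j 0 = 1) :
    ∏ j, f j (π.up κ j) = ∏ k, f (π.g k) (κ k) :=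
  (Fintype.prod_of_injective π.g π.inj _ _ (fun j hj => by rw [π.up_of hj, h]) fun k => by
    rw [up_g]).symm

theorem sum_up {R : Type*} [AddCommMonoid R] (κ : J₁ → ℕ) (f : J → ℕ → R) (h : ∀ j, f j 0 = 0) :
    ∑ j, f j (π.up κ j) = ∑ k, f (π.g k) (κ k) :=
  (Fintype.sum_of_injective π.g π.inj _ _ (fun j hj => by rw [π.up_of hj, h]) fun k => by
    rw [up_g]).symm

theorem mh {q : MvPolynomial (Vr io₁) ℂ} {κ : J₁ → ℕ} (h : MH q κ) :
    MH (MvPolynomial.rename π.vr q) (π.up κ) := by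
  intro s hs
  obtain ⟨u, rfl, hu⟩ := MvPolynomial.coeff_rename_ne_zero _ _ _ hs
  rw [← h hu]
  funext j
  rw [Finsupp.weight_apply, Finsupp.weight_apply,
    Finsupp.sum_mapDomain_index (by simp) (by simp [add_smul]), Finsupp.sum, Finsupp.sum,
    Finset.sum_apply]
  by_cases h1 : ∃ k, π.g k = j
  · obtain ⟨k, rfl⟩ := h1
    simp [vr, Pi.single_apply, π.inj.eq_iff]
  · rw [π.up_of h1]
    refine Finset.sum_eq_zero fun v _ => ?_
    simp [vr, Pi.single_eq_of_ne fun h2 : j = π.g v.1 => h1 ⟨_, h2.symm⟩]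

/-- the pull-back of a target -/
def tgt (T : Tgt io₁ A) : Tgt io A where
  F a := MvPolynomial.rename π.vr (T.F a)
  k a := π.up (T.k a)
  hom a := π.mh (T.hom a)

/-- the pull-back of classes -/
def fam {M : Type} (Φ : MFam B io₁ M) : MFam B io M := fun E _ _ y => Φ E fun q => π.pt (y q)

/-- configurations -/
def cfg (z : Cfg io I E) : Cfg io₁ I E where
  y q := π.pt (z.y q)
  V κ := z.V (π.up κ)

theorem pv_rename (y : Pnt io E) (q : MvPolynomial (Vr io₁) ℂ) :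
    pv y (MvPolynomial.rename π.vr q) = pv (π.pt y) q := MvPolynomial.aeval_rename _ _ _

theorem on_tgt (T : Tgt io₁ A) (y : Pnt io E) : (π.tgt T).On y ↔ T.On (π.pt y) :=
  forall_congr' fun a => by rw [← pv_rename]; rfl

theorem nz {y : Pnt io E} (h : NZ y) : NZ (π.pt y) := fun k =>
  (π.ei k).surjective.exists.1 (h (π.g k))

theorem prim {V : RZ ℂ E} {y : Pnt io E} (h : Prim V y) : Prim V (π.pt y) := fun k =>
  ⟨fun _ => (h _).1 _, (π.ei k).surjective.exists.1 (h (π.g k)).2⟩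

theorem ln_pt (y : Pnt io E) (k : J₁) : ln (π.pt y) k = ln y (π.g k) :=
  mxf_congr ((π.ei k).surjective.range_comp (y (π.g k)))

theorem lw_pt (y : Pnt io E) (κ : J₁ → ℕ) : lw κ (π.pt y) = lw (π.up κ) y := by
  simp only [lw, ln_pt]
  exact (π.sum_up κ (fun j n => n • ln y j) fun _ => zero_nsmul _).symm

theorem dot_eq (κ : J₁ → ℕ) (d : J → ℕ) : dot κ (fun k => d (π.g k)) = dot (π.up κ) d :=
  (π.sum_up κ (fun j n => n * d j) fun _ => zero_mul _).symm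

theorem jac_tgt (T : Tgt io₁ A) (y : Pnt io E) (w : Vr io → E) :
    (π.tgt T).jac y w = T.jac (π.pt y) fun v => w (π.vr v) := by
  funext a
  rw [Node22.jac_apply, Node22.jac_apply]
  refine (Fintype.sum_of_injective π.vr π.vr_inj _ _ (fun v hv => ?_) fun v => ?_).symm
  · rw [MvPolynomial.pderiv_eq_zero_of_notMem_vars, map_zero, zero_mul]
    exact fun h => hv (by
      obtain ⟨u, -, h1⟩ := MvPolynomial.mem_vars_rename _ _ h
      exact ⟨u, h1⟩)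
  · change pv (π.pt y) _ * _ =
      pv y (MvPolynomial.pderiv (π.vr v) (MvPolynomial.rename π.vr _)) * _
    rw [MvPolynomial.pderiv_rename π.vr_inj, pv_rename]


theorem cfg_on (T : Tgt io₁ A) (z : Cfg io I E) : z.On (π.tgt T) ↔ (π.cfg z).On T :=
  forall_congr' fun _ => π.on_tgt T _

theorem cfg_gau (c : I → J → E) (z : Cfg io I E) :
    π.cfg (z.gau c) = (π.cfg z).gau fun q k => c q (π.g k) :=
  Cfg.ext (fun _ => rfl) fun κ => by
    change sclS _ _ = sclS _ _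
    congr 1
    funext q
    exact π.prod_up κ (fun j n => c q j ^ n) fun _ => pow_zero _

theorem cfg_red (p : Pl ℂ E ℂ E') (z : Cfg io I E) : π.cfg (z.red p) = (π.cfg z).red p := by
  have h : (π.cfg z).nrm p.V = fun q k => z.nrm p.V q (π.g k) := by
    funext q j
    exact congrArg (fun a : BD ℂ E => (a.gen p.V)⁻¹) (π.ln_pt (z.y q) j)
  rw [Cfg.red, Cfg.red, h, ← cfg_gau]
  rfl

theorem sv_tgt (T : Tgt io₁ A) (z : Cfg io I E) : z.sv (π.tgt T) = (π.cfg z).sv T :=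
  funext fun _ => π.pv_rename _ _

theorem ea_tgt (T : Tgt io₁ A) (z : Cfg io I E) : z.ea (π.tgt T) = (π.cfg z).ea T :=
  funext fun _ => (π.lw_pt _ _).symm

theorem dv_tgt (T : Tgt io₁ A) (z : Cfg io I E) : z.dv (π.tgt T) = (π.cfg z).dv T := by
  rw [Cfg.dv, Cfg.dv, sv_tgt, ea_tgt]

theorem mcls {T₁ : Tgt io₁ A₁} {T : Tgt io A} {M : Type} {Φ : MFam B io₁ M} (hΦ : MCls B T₁ Φ)
    (h : ∀ (E : Type) [Field E] [Algebra ℂ E] (y : Pnt io E), NZ y → T.On y → T₁.On (π.pt y)) :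
    MCls B T (π.fam Φ) where
  scl E _ _ _ y c h1 h2 h3 := hΦ.scl E (fun q => π.pt (y q)) (fun q k => c q (π.g k))
    (fun _ _ => h1 _ _) (fun q => π.nz (h2 q)) fun q => h E _ (h2 q) (h3 q)
  nat K E _ _ _ _ _ _ p y h1 h2 := hΦ.nat K E p (fun q => π.pt (y q)) (fun q => π.prim (h1 q))
    fun q => h K _ (h1 q).nz (h2 q)

variable {d : J → ℕ}

/-- data -/
def dat {I : Type} (ξ : Dat io d I E) : Dat io₁ (fun k => d (π.g k)) I E where
  f := π.pt ξ.f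
  x := ξ.x
  cp := ⟨fun _ _ => ξ.cp.1 _ _, fun k => (π.ei k).surjective.exists.1 (ξ.cp.2.1 (π.g k)),
    fun k => by
      rw [← ξ.cp.2.2 (π.g k), ← (π.ei k).surjective.range_comp (ξ.f (π.g k))]
      rfl⟩

theorem cfg_dat (ξ : Dat io d I E) : (π.dat ξ).cfg = π.cfg ξ.cfg :=
  Cfg.ext (fun _ => rfl) fun κ => by
    change Submodule.map (ξ.evl _) (Polynomial.degreeLE E (dot κ _ : ℕ)) = Submodule.map _ _
    rw [π.dot_eq]

end Pj

/-! ### two systems of equations -/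

section Sum

variable {T₁ : Tgt io A₁} {T₂ : Tgt io A₂} {z : Cfg io I E}

theorem on_sum {y : Pnt io E} : (sum T₁ T₂).On y ↔ T₁.On y ∧ T₂.On y := Sum.forall

theorem cfg_on_sum : z.On (sum T₁ T₂) ↔ z.On T₁ ∧ z.On T₂ :=
  (forall_congr' fun _ => on_sum).trans forall_and

theorem nm_sum (V : RZ ℂ E) : nm (z.ea (sum T₁ T₂)) V (z.sv (sum T₁ T₂)) =
    max (nm (z.ea T₁) V (z.sv T₁)) (nm (z.ea T₂) V (z.sv T₂)) :=
  eq_of_forall_ge_iff fun γ => by
    simp only [max_le_iff, nm_le, Prod.forall, Sum.forall]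
    rfl

theorem dv_sum (h1 : ¬ z.On T₁) (h2 : ¬ z.On T₂) : z.dv (sum T₁ T₂) = z.dv T₁ ⊓ z.dv T₂ :=
  ext' fun V => by
    rw [val_inf, Cfg.val_dv _ h1, Cfg.val_dv _ h2, Cfg.val_dv _ fun h => h1 (cfg_on_sum.1 h).1,
      nm_sum]
    have p1 := nm_pos (a := z.ea T₁) (V := V) fun h => h1 ((Cfg.on_iff T₁).2 h)
    have p2 := nm_pos (a := z.ea T₂) (V := V) fun h => h2 ((Cfg.on_iff T₂).2 h)
    rcases le_total (nm (z.ea T₁) V (z.sv T₁)) (nm (z.ea T₂) V (z.sv T₂)) with h | h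
    · rw [max_eq_right h, min_eq_right ((inv_le_inv₀ p2 p1).2 h)]
    · rw [max_eq_left h, min_eq_left ((inv_le_inv₀ p1 p2).2 h)]

theorem dv_sum_left (h1 : ¬ z.On T₁) (h2 : z.On T₂) : z.dv (sum T₁ T₂) = z.dv T₁ :=
  ext' fun V => by
    rw [Cfg.val_dv _ h1, Cfg.val_dv _ fun h => h1 (cfg_on_sum.1 h).1, nm_sum,
      (Cfg.on_iff T₂).1 h2, nm_eq_zero.2 rfl, max_eq_left zero_le]

end Sum

/-- the ambient space is a product -/
structure Sp (π₁ : Pj io₁ io) (π₂ : Pj io₂ io) : Prop where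
  dis : ∀ k k', π₁.g k ≠ π₂.g k'
  cov : ∀ j, (∃ k, π₁.g k = j) ∨ ∃ k, π₂.g k = j

namespace Sp

variable {π₁ : Pj io₁ io} {π₂ : Pj io₂ io} (h : Sp π₁ π₂)
include h

theorem bij : Function.Bijective (Sum.elim π₁.g π₂.g) :=
  ⟨π₁.inj.sumElim π₂.inj h.dis, fun j => (h.cov j).elim (fun ⟨k, hk⟩ => ⟨.inl k, hk⟩)
    fun ⟨k, hk⟩ => ⟨.inr k, hk⟩⟩

theorem sum_eq {R : Type*} [AddCommMonoid R] (f : J → R) :
    ∑ j, f j = ∑ k, f (π₁.g k) + ∑ k, f (π₂.g k) := by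
  rw [← h.bij.sum_comp f, Fintype.sum_sum_type]
  rfl

theorem all {p : (j : J) → Prop} (h1 : ∀ k, p (π₁.g k)) (h2 : ∀ k, p (π₂.g k)) (j : J) : p j := by
  rcases h.cov j with ⟨k, rfl⟩ | ⟨k, rfl⟩
  exacts [h1 k, h2 k]

theorem exists_pt {R : Type} (y₁ : Pnt io₁ R) (y₂ : Pnt io₂ R) :
    ∃ y : Pnt io R, π₁.pt y = y₁ ∧ π₂.pt y = y₂ := by
  have key : ∀ j, ∃ u : io j → R, (∀ k (e : π₁.g k = j) i, u (e ▸ π₁.ei k i) = y₁ k i) ∧
      ∀ k (e : π₂.g k = j) i, u (e ▸ π₂.ei k i) = y₂ k i := h.all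
    (fun k₀ => ⟨fun i => y₁ k₀ ((π₁.ei k₀).symm i), fun k e i => by
      obtain rfl := π₁.inj e
      simp, fun k e => absurd e.symm (h.dis _ _)⟩)
    fun k₀ => ⟨fun i => y₂ k₀ ((π₂.ei k₀).symm i), fun k e => absurd e (h.dis _ _), fun k e i => by
      obtain rfl := π₂.inj e
      simp⟩
  choose y h1 h2 using key
  exact ⟨y, funext fun k => funext (h1 _ k rfl), funext fun k => funext (h2 _ k rfl)⟩

theorem nz {y : Pnt io E} (h1 : NZ (π₁.pt y)) (h2 : NZ (π₂.pt y)) : NZ y :=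
  h.all (fun k => (h1 k).elim fun _ hi => ⟨_, hi⟩) fun k => (h2 k).elim fun _ hi => ⟨_, hi⟩

theorem lw_eq (κ : J → ℕ) (y : Pnt io E) :
    lw κ y = lw (fun k => κ (π₁.g k)) (π₁.pt y) + lw (fun k => κ (π₂.g k)) (π₂.pt y) := by
  simp only [lw, Pj.ln_pt]
  exact h.sum_eq _

variable (T₁ : Tgt io₁ A₁) (T₂ : Tgt io₂ A₂)

theorem mem_Nm {y : Pnt io E} {n : A₁ ⊕ A₂ → E} : n ∈ (sum (π₁.tgt T₁) (π₂.tgt T₂)).Nm y ↔
    (fun a => n (.inl a)) ∈ T₁.Nm (π₁.pt y) ∧ (fun a => n (.inr a)) ∈ T₂.Nm (π₂.pt y) := by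
  have e : ∀ w, (sum (π₁.tgt T₁) (π₂.tgt T₂)).jac y w =
      Sum.elim ((π₁.tgt T₁).jac y w) ((π₂.tgt T₂).jac y w) := fun w => by
    funext a
    cases a <;> exact (jac_eq _ _ _ _).trans (jac_eq _ _ _ _).symm
  refine ⟨?_, ?_⟩
  · rintro ⟨w, rfl⟩
    rw [e, π₁.jac_tgt, π₂.jac_tgt]
    exact ⟨⟨_, rfl⟩, _, rfl⟩
  · rintro ⟨⟨w₁, h1⟩, w₂, h2⟩
    obtain ⟨w, e1, e2⟩ := h.exists_pt (fun k i => w₁ ⟨k, i⟩) fun k i => w₂ ⟨k, i⟩
    refine ⟨fun v => w v.1 v.2, ?_⟩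
    have e3 : (fun v => w (π₁.vr v).1 (π₁.vr v).2) = w₁ :=
      funext fun v => congrFun (congrFun e1 v.1) v.2
    have e4 : (fun v => w (π₂.vr v).1 (π₂.vr v).2) = w₂ :=
      funext fun v => congrFun (congrFun e2 v.1) v.2
    rw [e, π₁.jac_tgt, π₂.jac_tgt, e3, e4, h1, h2]
    funext a
    cases a <;> rfl

theorem mem_Eb {z : Cfg io I E} {σ : (A₁ ⊕ A₂) × I → E} :
    σ ∈ z.Eb (sum (π₁.tgt T₁) (π₂.tgt T₂)) ↔
      (fun x : A₁ × I => σ (.inl x.1, x.2)) ∈ (π₁.cfg z).Eb T₁ ∧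
        (fun x : A₂ × I => σ (.inr x.1, x.2)) ∈ (π₂.cfg z).Eb T₂ := by
  simp only [Node22.mem_Eb, h.mem_Nm, Sum.forall, forall_and]
  exact and_and_and_comm

/-- the Chern polynomial of a product -/
theorem cpz_sum (hB : B.Ax) [Algebra.EssFiniteType ℂ E] (z : Cfg io I E) :
    cpz B (sum (π₁.tgt T₁) (π₂.tgt T₂)) z = cpz B T₁ (π₁.cfg z) * cpz B T₂ (π₂.cfg z) := by
  let g : A₁ × I ⊕ A₂ × I → (A₁ ⊕ A₂) × I := (Equiv.sumProdDistrib A₁ A₂ I).symm
  have hg : Function.Bijective g := (Equiv.sumProdDistrib A₁ A₂ I).symm.bijective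
  rw [cpz, cpz, cpz, ← hB.cp_dsum, ← hB.cp_funLeft (g := g) fun _ _ i hi => (hi (hg.2 i)).elim]
  congr 1
  · funext x
    rcases x with x | x
    · exact congrFun (π₁.ea_tgt T₁ z) x
    · exact congrFun (π₂.ea_tgt T₂ z) x
  · ext u
    rw [mem_dsum]
    refine ⟨?_, fun hu => ⟨fun x => u (Equiv.sumProdDistrib A₁ A₂ I x), (h.mem_Eb T₁ T₂).2 hu,
      funext fun x => congrArg u (Equiv.apply_symm_apply _ x)⟩⟩
    rintro ⟨σ, hσ, rfl⟩
    exact (h.mem_Eb T₁ T₂).1 hσ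

end Sp

end Crest.Agent.X262.Prd
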