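import Crest.Agent.X262.Prd86.Pj
import Crest.Agent.X262.Gwb59.Ax
import Crest.Agent.X262.Gwb59.Smo
import Crest.Agent.X262.Prd86.Abs
import Crest.Agent.X262.Eqi18.Main
import Crest.Agent.X262.Am12.Main
import Crest.Agent.X262.Vb10.Mob
import Crest.Agent.X262.Cnt37.Main
import Crest.Agent.X262.Tree87.Rank

-- ▼ part X262/PrdA18/Ad
section

/-!
# Row 262, road B (helper18): the product axiom of the instance from the field level formula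

* `GwP`, `GwP0` : the field level statements;  `SameP` : the ideal of a product;
* `prod_of : GwP → GwP0 → SameP → V.gw.PROD`.
-/

set_option autoImplicit false
set_option linter.unusedSectionVars false

noncomputable section

namespace Crest.Agent.X262.PrdA

open Crest.Agent.X277 Crest.Agent.X277.BD
open Crest.Agent.X262.Coh Crest.Agent.X262.Vb Crest.Agent.X262.Qn Crest.Agent.X262.Gwb
open Crest.Agent.X262.Prd (Pj Sp)
open Crest.Agent.X262.End66 (Same sum)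

/-- the product formula -/
def GwP : Prop :=
  ∀ (B : Hb.Th), B.Ax → ∀ {J : Type} [Fintype J] [DecidableEq J] {io : J → Type}
    [∀ j, Fintype (io j)] [∀ j, DecidableEq (io j)] {J₁ : Type} [Fintype J₁] [DecidableEq J₁]
    {io₁ : J₁ → Type} [∀ j, Fintype (io₁ j)] [∀ j, DecidableEq (io₁ j)] {J₂ : Type} [Fintype J₂]
    [DecidableEq J₂] {io₂ : J₂ → Type} [∀ j, Fintype (io₂ j)] [∀ j, DecidableEq (io₂ j)]
    {A A₁ A₂ M K : Type} [Fintype A] [Fintype A₁] [Fintype A₂] [Fintype M] [Field K] [Algebra ℂ K]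
    [Algebra.EssFiniteType ℂ K] (π₁ : Pj io₁ io) (π₂ : Pj io₂ io) (T : Tgt io A) (T₁ : Tgt io₁ A₁)
    (T₂ : Tgt io₂ A₂) (c₁ c₂ : ℕ) (d : J → ℕ) (y₀ : Pnt io₂ K) (Φ₁ : MFam B io₁ M)
    (Φ₂ : MFam B io₂ M), Sp π₁ π₂ → Same T (sum (π₁.tgt T₁) (π₂.tgt T₂)) →
    (∀ k, d (π₂.g k) = 0) → Good T₁ c₁ (fun k => d (π₁.g k)) → Ax0 B T d →
    Ax0 B T₁ (fun k => d (π₁.g k)) →
    (c₂ = 0 ∧ ∀ a, T₂.F a = 0) ∨ (Good T₂ c₂ 0 ∧ Ax0 B T₂ 0 ∧ Deg0 B T₂ c₂) →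
    GenPt T₂ c₂ y₀ → (∀ k, Nontrivial (io₁ k)) → 3 ≤ Fintype.card M → MCls B T₁ Φ₁ →
    MCls B T₂ Φ₂ → GW B T d (π₁.fam Φ₁ * π₂.fam Φ₂) =
      GW B T₁ (fun k => d (π₁.g k)) Φ₁ * B.itg K (Φ₂ K fun _ => y₀)

/-- the projection attached to a restriction -/
def pj {X Y : SV} {μ : Hom X Y} {n : Pre Y} {m : Pre X} {g : n.J → m.J} (D : RsD μ n m g)
    (hg : Function.Injective g) : Pj n.io m.io := ⟨g, hg, D.e⟩

/-- the ideal of a product -/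
def SameP : Prop :=
  ∀ {Y S : SV} (m : Pre Y) (n : Pre S) (p : Pre (Y.prod S)) (e : m.J ⊕ n.J ≃ p.J)
    (D₁ : RsD (fst Y S) m p fun k => e (.inl k)) (D₂ : RsD (snd Y S) n p fun k => e (.inr k)),
    Same p.tgt (sum ((pj D₁ (e.injective.comp Sum.inl_injective)).tgt m.tgt)
      ((pj D₂ (e.injective.comp Sum.inr_injective)).tgt n.tgt))

theorem pj_sp {Y S P : SV} {μ : Hom P Y} {ν : Hom P S} {m : Pre Y} {n : Pre S} {p : Pre P}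
    {e : m.J ⊕ n.J ≃ p.J} (D₁ : RsD μ m p fun k => e (.inl k))
    (D₂ : RsD ν n p fun k => e (.inr k)) : Sp (pj D₁ (e.injective.comp Sum.inl_injective))
      (pj D₂ (e.injective.comp Sum.inr_injective)) :=
  ⟨fun _ _ h => Sum.inl_ne_inr (e.injective h), fun j => by
    obtain ⟨k | k, rfl⟩ := e.surjective j
    exacts [.inl ⟨k, rfl⟩, .inr ⟨k, rfl⟩]⟩

variable {C : Coh.Th} {B : Hb.Th}

theorem pj_mcls {X Y : SV} {μ : Hom X Y} {n : Pre Y} {m : Pre X} {g : n.J → m.J} (D : RsD μ n m g)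
    (hg : Function.Injective g) {M : Type} {Φ : MFam B n.io M} (h : MCls B n.tgt Φ) :
    MCls B m.tgt ((pj D hg).fam Φ) :=
  Pj.mcls _ h fun _ _ _ _ _ h => Pre.on_iff.2 (D.on (Pre.on_iff.1 h))

theorem second (V : Vir C B) {S : SV} (n : Pre S) : (n.cod = 0 ∧ ∀ a, n.tgt.F a = 0) ∨
    (Good n.tgt n.cod 0 ∧ Ax0 B n.tgt 0 ∧ Deg0 B n.tgt n.cod) :=
  (em (∀ a, n.tgt.F a = 0)).imp (fun h => ⟨by
    have h1 := n.tgt_isEq.rank_add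
    rw [show Syz.jac n.tgt.F n.yv = 0 from Matrix.ext fun a v => by simp [Syz.jac, h],
      Matrix.rank_zero, zero_add] at h1
    rw [Pre.cod, h1, Nat.sub_self], h⟩) fun h => by
    have h3 := n.tgt_isEq.smo (not_forall.1 h)
    exact ⟨h3.good 0, V.ax0 B V.hB _ _ 0 (h3.good 0), V.deg0 B V.hB _ _ h3⟩

/-- **the product axiom** -/
theorem prod_of (hP : GwP) (hS : SameP) (V : Vir C B) : V.gw.PROD := by
  intro Y S m n p e h1 h2 d d' hd hd' a b l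
  rcases lt_or_ge l.card 2 with hl | hl
  · rw [V.low p d' _ (by rwa [Multiset.card_map]), V.low m d l hl]
    simp
  obtain ⟨D₁⟩ := exists_rsD (n := m.toPre) (m := p.toPre) h1
  obtain ⟨D₂⟩ := exists_rsD (n := n) (m := p.toPre) h2
  obtain ⟨M, _, _, x, rfl, hM⟩ := Ev.exists_idx l
  have e1 : (fun k => d' (e (.inl k))) = d := funext hd
  have c1 := Ev.mcls_cons (V.evAx m) a x
  have c2 := mcls_at (M := Option M) (V.hI.cls n b) none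
  have key := hP B V.hB _ _ p.tgt m.tgt n.tgt m.toPre.cod n.cod d' n.y _ _ (pj_sp D₁ D₂)
    (hS m.toPre n p.toPre e D₁ D₂) hd' (V.good m _) (V.a0 p d') (V.a0 m _) (second V n)
    (V.gen S n) m.nt (by rw [Fintype.card_option]; omega) c1 c2
  rw [V.itg_op p d' (by rwa [Multiset.card_map]), V.itg_op m d hl, Multiset.map_map,
    Ev.gw_cons (V.a0 p d'), Ev.gw_cons (V.a0 m d), ← V.hI.itg n b, ← e1]
  refine Eq.trans (GW_congr (V.a0 p d') (Ev.mcls_cons (V.evAx p) _ _)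
    (mcls_mul (pj_mcls D₁ _ c1) (pj_mcls D₂ _ c2)) fun E _ _ _ y h3 h4 => ?_) key
  have h5 := fun q => V.hI.rs D₁ E (y q) (h3 q) (Pre.on_iff.1 (h4 q))
  have h6 := V.hI.rs D₂ E (y none) (h3 _) (Pre.on_iff.1 (h4 _)) b
  change V.I.ev p.toPre E (y none) _ * ∏ q, V.I.ev p.toPre E (y (some q)) (C.pb _ (x q)) =
    V.I.ev m.toPre E (D₁.pt (y none)) a * (∏ q, V.I.ev m.toPre E (D₁.pt (y (some q))) (x q)) *
      V.I.ev n E (D₂.pt (y none)) b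
  simp only [map_mul, h5, h6]
  ring

end Crest.Agent.X262.PrdA
end
end

-- ▼ part X262/Prd86/Vir
section

/-!
# Row 262, road B, PROD (helper86), part 3: the virtual number of a product

* `sm_one`    : a sum over a pulled back divisor with a class from the second factor;
* `vir_prod`  : product of two configurations which do not lie on their targets;
* `vir_prod0` : the second target is the whole ambient space.
-/

set_option autoImplicit false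
set_option linter.unusedSectionVars false

noncomputable section

namespace Crest.Agent.X262.Prd

open Crest.Agent.X277 Crest.Agent.X277.BD Crest.Agent.X277.Pst Crest.Agent.X277.BD.Cyc
open Crest.Agent.X262.Geo Crest.Agent.X262.Hb Crest.Agent.X262.Wd Crest.Agent.X262.Vb
open Crest.Agent.X262.Sym65 (PF PX Liv LivX Sup sm cf i1 qv mem_sup)
open Crest.Agent.X262.End66 (sum)
open Crest.Agent.R274.Prod1_134 (IsPF)

variable {K₁ K₂ L E : Type} [Field K₁] [Algebra ℂ K₁] [Field K₂] [Algebra ℂ K₂] [Field L]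
  [Algebra ℂ L] [Field E] [Algebra ℂ E] {B : Th} {α : K₁ →ₐ[ℂ] L} {β : K₂ →ₐ[ℂ] L}
  [Algebra.EssFiniteType ℂ K₁] [Algebra.EssFiniteType ℂ K₂] [Algebra.EssFiniteType ℂ L]

/-- a class from the second factor -/
theorem sm_one (hB : B.Ax) (h : IsPF α β) {D : BD ℂ K₁} {φ : PF B K₁} (hφ : Liv B (Sup D) φ)
    (x : B.H K₂) : sm (pb α D) (i1 (φ.on (LP.hom α) *
      Sym65.PF.on (fun _ _ _ p => B.pb p x) (LP.hom β))) = sm D (i1 φ) * B.itg K₂ x := by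
  rw [mul_comm (sm D _), ← Sym65.sm_mul]
  refine sm_gx h (fun W hW h1 h2 => ?_) fun W hW hW' h1 h2 => ?_
  · obtain ⟨F, h3, h4, h5⟩ := (gx_or h hW (ne_top_of_sup h1)).resolve_left h2
    have := essFT_Rf hW
    exact ((spl_left (β := β) hφ _ (LP.at W) F (by rwa [← sup_pb, mem_sup_pb]) h4 h5).mul
      (spl_right (α := α) (Liv.glob (Z := Set.univ) hB x) _ (LP.at W) F trivial h4 h5)).itg hB h3
  · have := essFT_Rf hW
    have := essFT_Rf hW'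
    change B.itg _ (φ _ ((LP.hom α).comp (LP.at W)) * B.pb ((LP.hom β).comp (LP.at W)) x) = _
    rw [hom_at, hom_at' β W h2.mem, hφ.nat _ _ (LP.at (dn α W)) _ h1,
      hB.fub _ _ (prd_of_pf (h2.isPF h)), mul_comm]
    rfl

variable {J : Type} [Fintype J] [DecidableEq J] {io : J → Type} [∀ j, Fintype (io j)]
  [∀ j, DecidableEq (io j)]
variable {J₁ : Type} [Fintype J₁] [DecidableEq J₁] {io₁ : J₁ → Type} [∀ j, Fintype (io₁ j)]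
  [∀ j, DecidableEq (io₁ j)]
variable {J₂ : Type} [Fintype J₂] [DecidableEq J₂] {io₂ : J₂ → Type} [∀ j, Fintype (io₂ j)]
  [∀ j, DecidableEq (io₂ j)]
variable {A₁ A₂ I M : Type} [Fintype A₁] [Fintype A₂] [Fintype I]
  {π₁ : Pj io₁ io} {π₂ : Pj io₂ io} {T₁ : Tgt io₁ A₁} {T₂ : Tgt io₂ A₂}
  {z : Cfg io I L} {z₁ : Cfg io₁ I K₁} {z₂ : Cfg io₂ I K₂} {Φ₁ : MFam B io₁ M} {Φ₂ : MFam B io₂ M}

theorem geq_red (e : Cfg.Geq (z₁.map α) (π₁.cfg z)) (hz : z₁.NZ) (p : LP L E) :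
    Cfg.Geq (z₁.red ((LP.hom α).comp p).toPl) (π₁.cfg (z.red p.toPl)) := by
  rw [π₁.cfg_red]
  exact (Cfg.red_map α p hz).trans (e.red (hz.map α) _)

theorem dv_side (e : Cfg.Geq (z₁.map α) (π₁.cfg z)) (hz : z₁.NZ) :
    z.dv (π₁.tgt T₁) = pb α (z₁.dv T₁) := by
  rw [π₁.dv_tgt, e.dv T₁ (hz.map α), Cfg.dv_map]

theorem on_side (e : Cfg.Geq (z₁.map α) (π₁.cfg z)) : z.On (π₁.tgt T₁) ↔ z₁.On T₁ := by
  rw [π₁.cfg_on, e.on, Cfg.on_map]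

theorem cp_side (hB : B.Ax) [Algebra.EssFiniteType ℂ E] (e : Cfg.Geq (z₁.map α) (π₁.cfg z))
    (hz : z₁.NZ) (p : LP L E) :
    cpz B T₁ (π₁.cfg (z.red p.toPl)) = (cpF B T₁ z₁).on (LP.hom α) E p :=
  cpz_geq hB (geq_red e hz p) (hz.red _)

theorem ev_side [Algebra.EssFiniteType ℂ E] (hΦ : MCls B T₁ Φ₁)
    (e : Cfg.Geq (z₁.map α) (π₁.cfg z)) (hz : z₁.NZ) (m : M → I) {p : LP L E}
    (hp : (z₁.red ((LP.hom α).comp p).toPl).On T₁) :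
    evF z m (π₁.fam Φ₁) E p = (evF z₁ m Φ₁).on (LP.hom α) E p :=
  hΦ.geq (m := m) (geq_red e hz p) (hz.red _) hp

theorem on_of_sup (hz : z₁.NZ) {p : LP L E} (hp : p.V ∈ Sup (pb α (z₁.dv T₁))) :
    (z₁.red ((LP.hom α).comp p).toPl).On T₁ :=
  (mem_Zon hz).1 (sup_sub hz (by rwa [sup_pb] at hp))

/-- **the virtual number of a product** -/
theorem vir_prod (hB : B.Ax) (h : Sp π₁ π₂) (hp : IsPF α β)
    (e₁ : Cfg.Geq (z₁.map α) (π₁.cfg z)) (e₂ : Cfg.Geq (z₂.map β) (π₂.cfg z)) (r₁ : Rk T₁ z₁)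
    (r₂ : Rk T₂ z₂) (n₁ : ¬ z₁.On T₁) (n₂ : ¬ z₂.On T₂) (hΦ₁ : MCls B T₁ Φ₁) (hΦ₂ : MCls B T₂ Φ₂)
    (m : M → I) : vir B (sum (π₁.tgt T₁) (π₂.tgt T₂)) z m (π₁.fam Φ₁ * π₂.fam Φ₂) =
      vir B T₁ z₁ m Φ₁ * vir B T₂ z₂ m Φ₂ := by
  have d₁ := Cfg.dv_nonneg T₁ r₁.nz
  have d₂ := Cfg.dv_nonneg T₂ r₂.nz
  rw [vir_eq_sm, vir_eq_sm, vir_eq_sm, ← sm_prod hB hp d₁ d₂ ((r₁.livX hB).mono (sup_sub r₁.nz))
    ((r₂.livX hB).mono (sup_sub r₂.nz)) (fun E _ _ _ p => r₁.root' hB) (fun E _ _ _ p => r₂.root' hB)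
    ((liv_evF hΦ₁ r₁.nz m).mono (sup_sub r₁.nz)) ((liv_evF hΦ₂ r₂.nz m).mono (sup_sub r₂.nz)),
    dv_sum ((on_side e₁).not.2 n₁) ((on_side e₂).not.2 n₂), dv_side e₁ r₁.nz, dv_side e₂ r₂.nz]
  refine Vb.sm_congr fun W hW h1 => ?_
  have := essFT_Rf hW
  obtain ⟨h2, h3⟩ := (Sym65.sup_inf (pb_nonneg_iff.2 d₁) (pb_nonneg_iff.2 d₂)).le h1
  have h4 := ev_side hΦ₁ e₁ r₁.nz m (on_of_sup (p := LP.at W) r₁.nz h2)
  have h5 := ev_side hΦ₂ e₂ r₂.nz m (on_of_sup (p := LP.at W) r₂.nz h3)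
  have h6 := h.cpz_sum T₁ T₂ hB (z.red (LP.at W).toPl)
  rw [cp_side hB e₁ r₁.nz, cp_side hB e₂ r₂.nz] at h6
  refine congrArg (B.itg (Rf W)) (congrArg₂ (· * ·) ?_ (congrArg₂ (· * ·) h4 h5))
  exact congrArg (fun P : Polynomial (B.H (Rf W)) => (-P.divX).eval _) h6

omit [Algebra.EssFiniteType ℂ K₁] [Algebra.EssFiniteType ℂ K₂] [Algebra.EssFiniteType ℂ L] in
theorem cpz_triv (hB : B.Ax) [Algebra.EssFiniteType ℂ E] (h0 : ∀ a, T₂.F a = 0) (w : Cfg io₂ I E) :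
    cpz B T₂ w = 1 := by
  have h1 : w.Eb T₂ = ⊥ := eq_bot_iff.2 fun σ hσ => funext fun x => by
    obtain ⟨u, hu⟩ := (Node22.mem_Eb.1 hσ).2 x.2
    have h2 := congrFun hu x.1
    rw [Node22.jac_apply, h0] at h2
    simpa using h2.symm
  rw [cpz, h1, hB.cp_bot]

/-- the second target is the ambient space -/
theorem vir_prod0 (hB : B.Ax) (h : Sp π₁ π₂) (hp : IsPF α β)
    (e₁ : Cfg.Geq (z₁.map α) (π₁.cfg z)) (e₂ : Cfg.Geq (z₂.map β) (π₂.cfg z)) (r₁ : Rk T₁ z₁)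
    (r₂ : z₂.NZ) (n₁ : ¬ z₁.On T₁) (h0 : ∀ a, T₂.F a = 0) (hΦ₁ : MCls B T₁ Φ₁)
    (hΦ₂ : MCls B T₂ Φ₂) (m : M → I) :
    vir B (sum (π₁.tgt T₁) (π₂.tgt T₂)) z m (π₁.fam Φ₁ * π₂.fam Φ₂) =
      vir B T₁ z₁ m Φ₁ * B.itg K₂ (Φ₂ K₂ fun q => z₂.y (m q)) := by
  have n₂ : z₂.On T₂ := fun q a => by rw [h0, Vb.pv, map_zero]
  rw [vir_eq_sm, vir_eq_sm, ← sm_one hB hp ((r₁.liv hB hΦ₁ m _).mono (sup_sub r₁.nz)),
    dv_sum_left ((on_side e₁).not.2 n₁) ((on_side e₂).2 n₂), dv_side e₁ r₁.nz]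
  refine Vb.sm_congr fun W hW h1 => ?_
  have := essFT_Rf hW
  have h4 := ev_side hΦ₁ e₁ r₁.nz m (on_of_sup (p := LP.at W) r₁.nz h1)
  have h5 := (ev_side (p := LP.at W) hΦ₂ e₂ r₂ m (n₂.red T₂ (LP.lnr _) r₂)).trans
    (hΦ₂.red (m := m) ((LP.hom β).comp (LP.at W)) r₂ n₂)
  have h6 := h.cpz_sum T₁ T₂ hB (z.red (LP.at W).toPl)
  rw [cp_side hB e₁ r₁.nz, cpz_triv hB h0, mul_one] at h6
  refine congrArg (B.itg (Rf W)) ((congrArg₂ (· * ·) ?_ (congrArg₂ (· * ·) h4 h5)).trans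
    (mul_assoc _ _ _).symm)
  rw [cf_on hB]
  exact congrArg (fun P : Polynomial (B.H (Rf W)) => (-P.divX).eval _) h6

end Crest.Agent.X262.Prd
end
end

-- ▼ part X262/Prd86/Gw

/-!
# Row 262, road B, PROD (helper86), part 4: invariants of a product in degree `(d, 0)`

* data of degree zero; `exists_dat`, `univ_prod`, `nrm_prod` : data on a product;
* `gw_prod`, `gw_prod0` : the product formula.
-/

set_option autoImplicit false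
set_option linter.unusedSectionVars false

noncomputable section

namespace Crest.Agent.X262.Prd

open Crest.Agent.X277 Crest.Agent.X277.BD
open Crest.Agent.X262.Hb Crest.Agent.X262.Wd Crest.Agent.X262.Vb
open Crest.Agent.X262.End66 (sum Same)
open Crest.Agent.X262.Bub96 (hv)
open Crest.Agent.X262.Bub96.Tr (dot)
open Crest.Agent.R274.Prod1_134 (IsPF)

variable {J : Type} [Fintype J] [DecidableEq J] {io : J → Type} [∀ j, Fintype (io j)]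
  [∀ j, DecidableEq (io j)]
variable {J₁ : Type} [Fintype J₁] [DecidableEq J₁] {io₁ : J₁ → Type} [∀ j, Fintype (io₁ j)]
  [∀ j, DecidableEq (io₁ j)]
variable {J₂ : Type} [Fintype J₂] [DecidableEq J₂] {io₂ : J₂ → Type} [∀ j, Fintype (io₂ j)]
  [∀ j, DecidableEq (io₂ j)]
variable {K K₁ K₂ : Type} [Field K] [Algebra ℂ K] [Field K₁] [Algebra ℂ K₁] [Field K₂]
  [Algebra ℂ K₂] {I M : Type} {d : J → ℕ}

/-! ### degree zero -/

omit [Algebra ℂ K] in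
theorem hv_zero {n : ℕ} (hn : n = 0) {σ : Polynomial K} (h : σ.natDegree ≤ n) (t : Option K) :
    hv n σ t = σ.coeff 0 := by
  subst hn
  rw [Polynomial.eq_C_of_natDegree_le_zero h]
  cases t <;> simp [hv]

theorem pt_zero (hd : ∀ j, d j = 0) (ξ : Dat io d I K) (t : Option K) :
    ξ.pt t = fun j i => (ξ.f j i).coeff 0 :=
  funext fun j => funext fun i => hv_zero (hd j) (ξ.cp.1 j i) t

theorem dot_zero (hd : ∀ j, d j = 0) (κ : J → ℕ) : dot κ d = 0 :=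
  Finset.sum_eq_zero fun j _ => by rw [hd, mul_zero]

theorem cfg_zero [Fintype I] (hd : ∀ j, d j = 0) {ξ η : Dat io d I K} (hf : ξ.f = η.f) :
    ξ.cfg = η.cfg := by
  have key : ∀ {ξ η : Dat io d I K} (κ : J → ℕ), ξ.cfg.V κ ≤ η.cfg.V κ := fun κ => by
    rintro _ ⟨σ, hσ, rfl⟩
    have h1 := Polynomial.natDegree_le_of_degree_le (Polynomial.mem_degreeLE.1 hσ)
    exact ⟨σ, hσ, funext fun q =>
      (hv_zero (dot_zero hd κ) h1 _).trans (hv_zero (dot_zero hd κ) h1 _).symm⟩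
  refine Cfg.ext (fun q => ?_) fun κ => le_antisymm (key κ) (key κ)
  change ξ.pt _ = η.pt _
  rw [pt_zero hd, pt_zero hd, hf]

theorem nrm_zero [Nonempty I] (hd : ∀ j, d j = 0) (ξ : Dat io d I K) (N : ℕ) : ξ.NrmUp N :=
  fun κ _ L _ _ α W σ hσ h t => by
    have h1 := h (Classical.arbitrary I)
    rw [hv_zero (dot_zero hd κ) hσ, pt_zero hd] at h1 ⊢
    exact h1

/-! ### data on a product -/

variable {π₁ : Pj io₁ io} {π₂ : Pj io₂ io}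

omit [Algebra ℂ K] in
theorem exists_dat (h : Sp π₁ π₂) (ξ₁ : Dat io₁ (fun k => d (π₁.g k)) I K) {I' : Type}
    (ξ₂ : Dat io₂ (fun k => d (π₂.g k)) I' K) :
    ∃ ξ : Dat io d I K, π₁.pt ξ.f = ξ₁.f ∧ π₂.pt ξ.f = ξ₂.f ∧ ξ.x = ξ₁.x := by
  obtain ⟨f, h1, h2⟩ := h.exists_pt ξ₁.f ξ₂.f
  have c1 := ξ₁.cp
  have c2 := ξ₂.cp
  rw [← h1] at c1
  rw [← h2] at c2
  refine ⟨⟨f, ξ₁.x, h.all (fun k => (π₁.ei k).surjective.forall.2 (c1.1 k))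
    fun k => (π₂.ei k).surjective.forall.2 (c2.1 k),
    h.all (fun k => (π₁.ei k).surjective.exists.2 (c1.2.1 k))
      fun k => (π₂.ei k).surjective.exists.2 (c2.2.1 k), h.all (fun k => ?_) fun k => ?_⟩,
    h1, h2, rfl⟩
  · rw [← c1.2.2 k, ← (π₁.ei k).surjective.range_comp (f (π₁.g k))]
    rfl
  · rw [← c2.2.2 k, ← (π₂.ei k).surjective.range_comp (f (π₂.g k))]
    rfl

theorem range_le (a : K₁ →ₐ[ℂ] K) {S : Set K₁} (hS : IntermediateField.adjoin ℂ S = ⊤)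
    {F : IntermediateField ℂ K} (h : a '' S ⊆ F) : Set.range a ⊆ F := by
  rintro _ ⟨x, rfl⟩
  have h1 : (IntermediateField.adjoin ℂ S).map a ≤ F := by
    rw [IntermediateField.adjoin_map]
    exact IntermediateField.adjoin_le_iff.2 h
  exact h1 ⟨x, hS ▸ IntermediateField.mem_top, rfl⟩

theorem univ_prod [Fintype M] (h : Sp π₁ π₂) {a₁ : K₁ →ₐ[ℂ] K} {a₂ : K₂ →ₐ[ℂ] K} (hp : IsPF a₁ a₂)
    {ξ₁ : Dat io₁ (fun k => d (π₁.g k)) M K₁} {ξ₂ : Dat io₂ (fun k => d (π₂.g k)) (Fin 3) K₂}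
    (u₁ : ξ₁.Univ) (u₂ : ξ₂.Univ) {ξ : Dat io d M K} (h1 : π₁.pt ξ.f = (ξ₁.map a₁).f)
    (h2 : π₂.pt ξ.f = (ξ₂.map a₂).f) (h3 : ξ.x = (ξ₁.map a₁).x) : ξ.Univ := by
  have := Vb37.univ_essFT u₁
  have := Vb37.univ_essFT u₂
  have := essFT_pf hp
  refine ⟨?_, eq_top_iff.2 (hp.adjoin_eq ▸ IntermediateField.adjoin_le_iff.2 (Set.union_subset
    (range_le a₁ u₁.2.1 ?_) (range_le a₂ u₂.2.1 ?_))), ?_⟩
  · obtain ⟨a, b, c, e1, e2, e3⟩ := u₁.1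
    exact ⟨a, b, c, by simp [h3, Dat.map, e1], by simp [h3, Dat.map, e2], by simp [h3, Dat.map, e3]⟩
  · rw [← Vb37.crd_map]
    rintro t (⟨k, i, i', l, l', rfl⟩ | ⟨q, hq⟩)
    · exact IntermediateField.subset_adjoin _ _ (Or.inl ⟨_, _, _, l, l', by rw [← h1]; rfl⟩)
    · exact IntermediateField.subset_adjoin _ _ (Or.inr ⟨q, by rw [h3, hq]⟩)
  · rw [← Vb37.crd_map]
    rintro t (⟨k, i, i', l, l', rfl⟩ | ⟨q, hq⟩)
    · exact IntermediateField.subset_adjoin _ _ (Or.inl ⟨_, _, _, l, l', by rw [← h2]; rfl⟩)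
    · obtain ⟨a, b, c, e⟩ := u₂.1
      obtain ⟨n1, n2, n3⟩ := Vb37.Nm3.ne e
      have h4 : ∀ a b c q : Fin 3, a ≠ b → a ≠ c → b ≠ c → q = a ∨ q = b ∨ q = c := by decide
      rcases h4 a b c q n1 n2 n3 with rfl | rfl | rfl
      · simp [Dat.map, e.1] at hq
      · obtain rfl : 0 = t := by simpa [Dat.map, e.2.1] using hq
        exact zero_mem _
      · obtain rfl : 1 = t := by simpa [Dat.map, e.2.2] using hq
        exact one_mem _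
  · have e1 := u₁.2.2
    have e2 := u₂.2.2
    have e3 := Vb37.univ_card u₁
    rw [trdeg_eq_dim, Nat.cast_inj] at e1 e2 ⊢
    rw [dim_pf hp, e1, e2, mdim, mdim, mdim, h.sum_eq]
    simp only [← Fintype.card_congr (π₁.ei _), ← Fintype.card_congr (π₂.ei _), Fintype.card_fin]
    omega

theorem nrm_prod (h : Sp π₁ π₂) (h0 : ∀ k, d (π₂.g k) = 0) {ξ : Dat io d I K} {N : ℕ}
    (hn : (π₁.dat ξ).NrmUp N) : ξ.NrmUp N := fun κ hκ L _ _ α W σ hσ hq t => by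
  have e1 : dot κ d = dot (fun k => κ (π₁.g k)) fun k => d (π₁.g k) := by
    refine (h.sum_eq _).trans ?_
    simp only [h0, mul_zero, Finset.sum_const_zero, add_zero]
    rfl
  let b := lw (fun k => κ (π₂.g k)) fun k i => ((π₂.dat (ξ.map α)).f k i).coeff 0
  have e2 : ∀ t, (lw κ ((ξ.map α).pt t)).val W =
      (lw (fun k => κ (π₁.g k)) (((π₁.dat ξ).map α).pt t)).val W * W.v (b.gen W) := fun t => by
    rw [h.lw_eq, val_add, v_gen]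
    exact congrArg (fun y => _ * (lw _ y).val W) (pt_zero h0 (π₂.dat (ξ.map α)) t)
  have e3 := RZ.pos (V := W) (gen_ne b W)
  have e4 := hn _ (fun k => hκ (π₁.g k)) L α W (Polynomial.C (b.gen W)⁻¹ * σ)
    ((Polynomial.natDegree_C_mul_le _ _).trans (e1 ▸ hσ)) (fun q => by
      rw [Vb37.hv_C_mul, map_mul, map_inv₀, inv_mul_le_iff₀' e3, ← e2, ← e1]
      exact hq q) t
  rwa [Vb37.hv_C_mul, map_mul, map_inv₀, inv_mul_le_iff₀' e3, ← e2, ← e1] at e4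

/-! ### the product formula -/

variable {A A₁ A₂ : Type} [Fintype A] [Fintype A₁] [Fintype A₂] {T : Tgt io A} {T₁ : Tgt io₁ A₁}
  {T₂ : Tgt io₂ A₂} {B : Th} [Fintype M] {Φ₁ : MFam B io₁ M} {Φ₂ : MFam B io₂ M} {c₁ c₂ : ℕ}

theorem mcls_prod (hS : Same T (sum (π₁.tgt T₁) (π₂.tgt T₂))) (hΦ₁ : MCls B T₁ Φ₁)
    (hΦ₂ : MCls B T₂ Φ₂) : MCls B T (π₁.fam Φ₁ * π₂.fam Φ₂) :=
  (π₁.mcls hΦ₁ fun _ _ _ _ h1 h2 => (π₁.on_tgt _ _).1 (on_sum.1 ((hS.on h1).1 h2)).1).mul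
    (π₂.mcls hΦ₂ fun _ _ _ _ h1 h2 => (π₂.on_tgt _ _).1 (on_sum.1 ((hS.on h1).1 h2)).2)

theorem gw_core (hB : B.Ax) (h : Sp π₁ π₂) (hS : Same T (sum (π₁.tgt T₁) (π₂.tgt T₂)))
    (h0 : ∀ k, d (π₂.g k) = 0) (G₁ : Good T₁ c₁ fun k => d (π₁.g k)) (a : Ax0 B T d)
    (a₁ : Ax0 B T₁ fun k => d (π₁.g k)) (hio : ∀ k, Nontrivial (io₁ k))
    (hM : 3 ≤ Fintype.card M) (hΦ₁ : MCls B T₁ Φ₁) (hΦ₂ : MCls B T₂ Φ₂)
    {ξ₂ : Dat io₂ (fun k => d (π₂.g k)) (Fin 3) K₂} (u₂ : ξ₂.Univ) {v : ℂ}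
    (hv : ∀ (I L₁ L : Type) [Fintype I] [Field L₁] [Algebra ℂ L₁] [Algebra.EssFiniteType ℂ L₁]
      [Field L] [Algebra ℂ L] [Algebra.EssFiniteType ℂ L] (α : L₁ →ₐ[ℂ] L) (β : K₂ →ₐ[ℂ] L),
      IsPF α β → ∀ (z : Cfg io I L) (z₁ : Cfg io₁ I L₁) (r : I → Fin 3), Function.Surjective r →
      z₁.map α = π₁.cfg z → (ξ₂.res r).cfg.map β = π₂.cfg z → Rk T₁ z₁ → ¬ z₁.On T₁ →
      ∀ m : M → I, vir B (sum (π₁.tgt T₁) (π₂.tgt T₂)) z m (π₁.fam Φ₁ * π₂.fam Φ₂) =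
        vir B T₁ z₁ m Φ₁ * v) :
    GW B T d (π₁.fam Φ₁ * π₂.fam Φ₂) = GW B T₁ (fun k => d (π₁.g k)) Φ₁ * v := by
  have := Vb37.univ_essFT u₂
  obtain ⟨K₁, _, _, _, ξ₁, u₁⟩ := Vb37.exists_univ (d := fun k => d (π₁.g k)) hio hM
  obtain ⟨N, hN⟩ := a.gw _ (mcls_prod hS hΦ₁ hΦ₂)
  obtain ⟨N₁, hN₁⟩ := a₁.gw _ hΦ₁
  obtain ⟨N₂, hN₂⟩ := rk_of Tree87.rankStmt G₁
  obtain ⟨N₃, hN₃⟩ := Eqi.vir_eqi hB hS
  obtain ⟨L₁, _, _, _, θ₁, n, η, p1, p2, p3⟩ := Vb10.exNrm ξ₁ (N + N₁ + N₂ + N₃)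
  have hp := R274.Prod1_134.isPF ℂ K₁ K₂
  have := essFT_pf hp
  have i1 : deg (AlgHom.id ℂ K₂) = 1 := deg_of_surjective Function.surjective_id
  obtain ⟨L, _, _, _, α, β, θ, q1, q2, q3, q4⟩ :=
    Am12.exists_amal2 (prd_of_pf hp) θ₁ (AlgHom.id ℂ K₂) p1 (i1 ▸ one_pos)
  rw [i1, mul_one] at q4
  obtain ⟨ξ, x1, x2, x3⟩ := exists_dat h (ξ₁.map (R274.Prod1_134.pα ℂ K₁ K₂))
    (ξ₂.map (R274.Prod1_134.pβ ℂ K₁ K₂))
  have u := univ_prod h hp u₁ u₂ x1 x2 x3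
  have y1 : π₁.dat ξ = ξ₁.map _ := Vb10.dat_ext x1 x3
  have y2 : (π₁.dat ξ).map θ = (η.map α).res Sum.inl := by
    rw [y1, Vb10.map_map, ← q2, ← Vb10.map_map, ← p2, Vb10.map_res]
  let ζ : Dat io d (M ⊕ Fin n) L := ⟨(ξ.map θ).f, (η.map α).x, (ξ.map θ).cp⟩
  have z1 : π₁.dat ζ = η.map α := Vb10.dat_ext (congrArg (Dat.f (I := M)) y2) rfl
  have z2 : ζ.res Sum.inl = ξ.map θ := Vb10.dat_ext rfl (congrArg Dat.x y2).symm
  have z3 : ζ.NrmUp (N + N₁ + N₂ + N₃) := nrm_prod h h0 (z1 ▸ Vb10.nrmUp_map p3 α)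
  obtain ⟨s⟩ := Function.Embedding.nonempty_of_card_le (α := Fin 3) (β := M) (by simpa using hM)
  have hr : Function.Surjective (Function.invFun (Sum.inl ∘ s : Fin 3 → M ⊕ Fin n)) :=
    Function.invFun_surjective (Sum.inl_injective.comp s.injective)
  have z4 : ¬ η.cfg.On T₁ := fun h1 => (Cnt37.notOnStmt T₁ G₁.1).2 ξ₁ u₁ (s 0) (by
    have h2 : T₁.On ((η.res Sum.inl).cfg.y (s 0)) := h1 _
    rw [p2, Vb37.cfg_map] at h2
    exact (on_map T₁ θ₁).1 h2)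
  have z5 : ((ξ₂.res (Function.invFun (Sum.inl ∘ s : Fin 3 → M ⊕ Fin n))).map β).f =
      (π₂.dat ζ).f := by
    have h1 : β = θ.comp (R274.Prod1_134.pβ ℂ K₁ K₂) := q3
    change (ξ₂.map β).f = ((π₂.dat ξ).map θ).f
    rw [h1, ← Vb10.map_map]
    funext k i
    exact congrArg (Polynomial.map _) (congrFun (congrFun x2 k) i).symm
  have w1 := hN L _ _ ζ _ θ (Vb10.over_inl u z2 (Vb10.mob _ _)) (Vb10.nrmUp_mono z3 (by omega))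
  have w2 := hN₁ L₁ _ _ η _ θ₁ (Vb10.over_inl u₁ p2 (Vb10.mob _ _))
    (Vb10.nrmUp_mono p3 (by omega))
  rw [hN₃ ζ (Vb10.nrmUp_mono z3 (by omega)), hv _ L₁ L α β (Am12.isPF_of_prd q1) ζ.cfg η.cfg _ hr
    (by rw [← Vb37.cfg_map, ← z1, π₁.cfg_dat]) (by rw [← Vb37.cfg_map, cfg_zero h0 z5, π₂.cfg_dat])
    (hN₂ η (fun _ => Vb37.nz_pt _ _) (Vb10.nrmUp_mono p3 (by omega))) z4, w2, q4, mul_assoc] at w1
  exact (mul_left_cancel₀ (Nat.cast_ne_zero.2 p1.ne') w1).symm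

/-- **PROD** -/
theorem gw_prod (hB : B.Ax) (h : Sp π₁ π₂) (hS : Same T (sum (π₁.tgt T₁) (π₂.tgt T₂)))
    (h0 : ∀ k, d (π₂.g k) = 0) (G₁ : Good T₁ c₁ fun k => d (π₁.g k)) (a : Ax0 B T d)
    (a₁ : Ax0 B T₁ fun k => d (π₁.g k)) (G₂ : Good T₂ c₂ 0) (a₂ : Ax0 B T₂ 0) (D₂ : Deg0 B T₂ c₂)
    [Algebra.EssFiniteType ℂ K] {y₀ : Pnt io₂ K} (hy : GenPt T₂ c₂ y₀)
    (hio : ∀ k, Nontrivial (io₁ k)) (hM : 3 ≤ Fintype.card M) (hΦ₁ : MCls B T₁ Φ₁)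
    (hΦ₂ : MCls B T₂ Φ₂) : GW B T d (π₁.fam Φ₁ * π₂.fam Φ₂) =
      GW B T₁ (fun k => d (π₁.g k)) Φ₁ * B.itg K (Φ₂ K fun _ => y₀) := by
  have hΨ := hΦ₂.comp fun _ : M => (0 : Fin 3)
  have D := D₂ y₀ hy _ hΨ
  rw [if_pos (Fintype.card_fin 3)] at D
  have e : (0 : J₂ → ℕ) = fun k => d (π₂.g k) := funext fun k => (h0 k).symm
  rw [e] at G₂ a₂ D
  obtain ⟨K₂, _, _, _, ξ₂, u₂⟩ := Vb37.exists_univ' (io := io₂) (d := fun k => d (π₂.g k))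
    (M := Fin 3) (fun k => ⟨(hy.nz k).elim fun i _ => ⟨i⟩, Or.inl (h0 k)⟩) (by simp)
  obtain ⟨N, hN⟩ := a₂.gw _ hΨ
  obtain ⟨N₂, hN₂⟩ := rk_of Tree87.rankStmt G₂
  refine gw_core hB h hS h0 G₁ a a₁ hio hM hΦ₁ hΦ₂ u₂
    fun I L₁ L _ _ _ _ _ _ _ α β hp z z₁ r hr e₁ e₂ r₁ n₁ m => ?_
  choose s hs using hr
  have : Nonempty I := ⟨s 0⟩
  have h1 : (ξ₂.res r).res s = ξ₂ := Vb10.dat_ext rfl (funext fun q => congrArg ξ₂.x (hs q))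
  have h2 := hN K₂ K₂ I (ξ₂.res r) s (AlgHom.id ℂ K₂)
    ⟨ξ₂, u₂, by rw [h1, Vb37.dmap_id]; exact Vb37.eqv_refl _⟩ (nrm_zero h0 _ _)
  rw [deg_of_surjective Function.surjective_id, Nat.cast_one, one_mul, D] at h2
  rw [vir_prod hB h hp (.of_eq e₁) (.of_eq e₂) r₁ (hN₂ _ (fun _ => Vb37.nz_pt _ _) (nrm_zero h0 _ _))
    n₁ (fun h3 => (Cnt37.notOnStmt T₂ G₂.1).2 ξ₂ u₂ (r (s 0)) (h3 (s 0))) hΦ₁ hΦ₂, ← h2]
  have h3 : ∀ q, (ξ₂.res r).cfg.y (m q) = (ξ₂.res r).cfg.y (s 0) := fun q =>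
    (pt_zero h0 _ _).trans (pt_zero h0 _ _).symm
  have h4 : evF (ξ₂.res r).cfg m Φ₂ = evF (ξ₂.res r).cfg s fun E _ _ y => Φ₂ E fun _ => y 0 := by
    funext E _ _ p
    refine congrArg (Φ₂ E) (funext fun q => ?_)
    exact congrArg (fun y => redP p.toPl fun j i => ((ln y j).gen p.V)⁻¹ * y j i) (h3 q)
  rw [vir_eq_sm B T₂ _ m, vir_eq_sm B T₂ _ s, h4]

/-- **PROD** with a product of projective spaces as second factor -/
theorem gw_prod0 (hB : B.Ax) (h : Sp π₁ π₂) (hS : Same T (sum (π₁.tgt T₁) (π₂.tgt T₂)))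
    (h0 : ∀ k, d (π₂.g k) = 0) (G₁ : Good T₁ c₁ fun k => d (π₁.g k)) (a : Ax0 B T d)
    (a₁ : Ax0 B T₁ fun k => d (π₁.g k)) (hF : ∀ a, T₂.F a = 0)
    [Algebra.EssFiniteType ℂ K] {y₀ : Pnt io₂ K} (hy : GenPt T₂ 0 y₀)
    (hio : ∀ k, Nontrivial (io₁ k)) (hM : 3 ≤ Fintype.card M) (hΦ₁ : MCls B T₁ Φ₁)
    (hΦ₂ : MCls B T₂ Φ₂) : GW B T d (π₁.fam Φ₁ * π₂.fam Φ₂) =
      GW B T₁ (fun k => d (π₁.g k)) Φ₁ * B.itg K (Φ₂ K fun _ => y₀) := by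
  let ξ₂ : Dat io₂ (fun k => d (π₂.g k)) (Fin 3) K :=
    ⟨fun k i => Polynomial.C (y₀ k i), ![none, some 0, some 1], fun k i => by simp,
      fun k => by simpa [h0] using hy.nz k, fun k => (hy.nz k).elim fun i hi =>
        Ideal.eq_top_of_isUnit_mem _ (Ideal.subset_span ⟨i, rfl⟩)
          (Polynomial.isUnit_C.2 hi.isUnit)⟩
  have u₂ : ξ₂.Univ := by
    refine ⟨⟨0, 1, 2, rfl, rfl, rfl⟩, eq_top_iff.2 (hy.gen ▸ IntermediateField.adjoin.mono _ _ _ ?_),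
      ?_⟩
    · rintro _ ⟨k, i, i', rfl⟩
      exact Or.inl ⟨k, i, i', 0, 0, by simp [ξ₂]⟩
    · rw [trdeg_eq_dim, Nat.cast_inj, ← add_zero (dim ℂ K), hy.dm]
      simp [mdim, adim, h0]
  refine gw_core hB h hS h0 G₁ a a₁ hio hM hΦ₁ hΦ₂ u₂
    fun I L₁ L _ _ _ _ _ _ _ α β hp z z₁ r _ e₁ e₂ r₁ n₁ m => ?_
  rw [vir_prod0 hB h hp (.of_eq e₁) (.of_eq e₂) r₁ (fun _ => Vb37.nz_pt _ _) n₁ hF hΦ₁ hΦ₂]
  have h1 : ∀ q, (ξ₂.res r).cfg.y (m q) = y₀ := fun q => (pt_zero h0 _ _).trans (by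
    funext k i
    exact Polynomial.coeff_C_zero)
  rw [funext h1]

end Crest.Agent.X262.Prd
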